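import Vale.Agent.P157.Final
import Vale.Agent.P166.Stmt

/-!
# P166: internal definitions

Everything is built on the cascade calculus of `Vale.Agent.P157`.
-/

namespace Vale.Agent.P166

open MeasureTheory ProbabilityTheory Matrix Vale.Agent.P157

/-! ## General Gibbs cascades with Gaussian fields -/

section gen
variable {ι Ω : Type} [Fintype ι] [MeasurableSpace Ω]

/-- Value of the Gibbs cascade with Hamiltonian `H` and variance profile `s`. -/
noncomputable def GV (μ : Measure Ω) (ζ : ℕ → ℝ) (n : ℕ) (s : ℕ → ι → ℝ)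
    (H : (ι → ℝ) → Ω → ℝ) : ℝ :=
  X ζ (gvs s) (gtop μ H) (n + 1) 0

/-- Energy plus linear coupling of the fields to the features `ξ`. -/
noncomputable def lsH (E : Ω → ℝ) (ξ : ι → Ω → ℝ) (w : ι → ℝ) (x : Ω) : ℝ :=
  E x + ∑ i, w i * ξ i x

/-- One more field, coupled boundedly to the observable `η`. -/
noncomputable def trH (H η : (ι → ℝ) → Ω → ℝ) (w : Option ι → ℝ) (x : Ω) : ℝ :=
  H (fun i => w (some i)) x + Real.sin (w none) * η (fun i => w (some i)) x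

/-- Variance profile with variance `σ` at level `d0` for the extra field. -/
noncomputable def optS (d0 : ℕ) (σ : ℝ) (s : ℕ → ι → ℝ) (d : ℕ) (o : Option ι) : ℝ :=
  o.elim (if d = d0 then σ else 0) (s d)

/-- Value with the probe field. -/
noncomputable def TR (μ : Measure Ω) (ζ : ℕ → ℝ) (n d0 : ℕ) (σ : ℝ) (s : ℕ → ι → ℝ)
    (H η : (ι → ℝ) → Ω → ℝ) : ℝ :=
  GV μ ζ n (optS d0 σ s) (trH H η)

/-- Value of a linear system. -/
noncomputable def LS (μ : Measure Ω) (ζ : ℕ → ℝ) (n : ℕ) (s : ℕ → ι → ℝ) (E : Ω → ℝ)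
    (ξ : ι → Ω → ℝ) : ℝ :=
  GV μ ζ n s (lsH E ξ)

/-- Value of a linear system with the probe field. -/
noncomputable def SL (μ : Measure Ω) (ζ : ℕ → ℝ) (n d0 : ℕ) (σ : ℝ) (s : ℕ → ι → ℝ) (E : Ω → ℝ)
    (ξ : ι → Ω → ℝ) (η : Ω → ℝ) : ℝ :=
  TR μ ζ n d0 σ s (lsH E ξ) fun _ x => η x

/-- Full Gibbs expectation in a linear system. -/
noncomputable def lEG (μ : Measure Ω) (ζ : ℕ → ℝ) (n : ℕ) (s : ℕ → ι → ℝ) (E : Ω → ℝ)
    (ξ : ι → Ω → ℝ) (g : Ω → ℝ) : ℝ :=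
  EG ζ (gvs s) μ (lsH E ξ) (fun _ x => g x) n

/-- Response to a field at level `d` coupled to `m` in a linear system. -/
noncomputable def lDb (μ : Measure Ω) (ζ : ℕ → ℝ) (n : ℕ) (s : ℕ → ι → ℝ) (E : Ω → ℝ)
    (ξ : ι → Ω → ℝ) (m : Ω → ℝ) (d : ℕ) : ℝ :=
  Db ζ (gvs s) μ (lsH E ξ) (fun _ x => m x) (fun _ _ => 0) n d

end gen

/-- Bounded cavity potentials with coordinate jets. -/
structure CJ {L Ω : Type} [Fintype L] [DecidableEq L] [MeasurableSpace Ω]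
    (Pc : (L → ℝ) → Ω → ℝ) (K : ℝ) : Prop where
  meas : Measurable (Function.uncurry Pc)
  bd : ∀ t x, |Pc t x| ≤ K
  jet : ∀ l, ∃ m a, FJet Pc (Pi.single l 1) m a K

/-- Stability under relative perturbations of the argument. -/
def Hom {L Ω : Type} [Fintype L] (η : (L → ℝ) → Ω → ℝ) (Lh : ℝ) : Prop :=
  ∀ (e : ℝ) (t t' : L → ℝ) (x : Ω), 0 ≤ e → e ≤ 1 / 2 →
    ∑ l, (t' l - t l) ^ 2 ≤ e ^ 2 * ∑ l, t l ^ 2 → |η t' x - η t x| ≤ Lh * e

/-- Cavity fields. -/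
noncomputable def tG {L B : Type} [Fintype B] (G : L × B → ℝ) (v : B → ℝ) (l : L) : ℝ :=
  ∑ j, G (l, j) * v j

/-- One sided second difference bounds at the levels `0, ..., n`. -/
def SDz (U : (ℕ → ℝ) → ℝ) (θ τ : ℕ → ℝ) (y κ : ℝ) (n : ℕ) : Prop :=
  ∀ d, d ≤ n →
    U (Function.update θ d (θ d + y)) - U θ ≤ y * τ d + κ ∧
    U (Function.update θ d (θ d - y)) - U θ ≤ -(y * τ d) + κ

/-- The overlap path `r` of the distinguished block is tied to the slopes `τ`. -/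
structure Rel (n : ℕ) (ζ : ℕ → ℝ) (γ : ℝ) (N : ℕ) (ϑ τ r : ℕ → ℝ) (η : ℝ) : Prop where
  cadm : CAdm n r
  r0 : r 0 ≤ 2 * γ
  top : |N * r 0 - γ * (N + 2 * τ 0)| ≤ η * N
  lev : ∀ d, 1 ≤ d → d ≤ n → |N * (r 0 - QQ ζ r d) - γ * (τ d / ϑ d)| ≤ η * N

/-! ## Orthogonal matrices -/

section orth
variable {S : Type} [Fintype S] [DecidableEq S]

/-- The block matrix `1 ⊕ V`. -/
noncomputable def emb (V : OG S) : OG (Option S) :=
  ⟨Matrix.of fun i j => i.elim (j.elim 1 fun _ => 0) fun a => j.elim 0 fun b => V.1 a b, by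
    have h : V.1 * V.1ᵀ = 1 := (Matrix.mem_orthogonalGroup_iff S ℝ).1 V.2
    rw [Matrix.mem_orthogonalGroup_iff]
    ext i j
    rcases i with _ | a <;> rcases j with _ | b
    · simp [Matrix.mul_apply]
    · simp [Matrix.mul_apply]
    · simp [Matrix.mul_apply]
    · have := congrFun (congrFun h a) b
      simpa [Matrix.mul_apply, Matrix.one_apply] using this⟩

/-- The reflection in the hyperplane orthogonal to `v` (the identity for `v = 0`). -/
noncomputable def refl (v : S → ℝ) : OG S :=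
  ⟨1 - (2 / (v ⬝ᵥ v)) • Matrix.vecMulVec v v, by
    rw [Matrix.mem_orthogonalGroup_iff]
    have h1 : (Matrix.vecMulVec v v)ᵀ = Matrix.vecMulVec v v := by
      ext i j
      simp [Matrix.vecMulVec_apply, mul_comm]
    have h2 : Matrix.vecMulVec v v * Matrix.vecMulVec v v = (v ⬝ᵥ v) • Matrix.vecMulVec v v := by
      ext i j
      simp only [Matrix.mul_apply, Matrix.vecMulVec_apply, Matrix.smul_apply, smul_eq_mul,
        dotProduct, Finset.sum_mul]
      exact Finset.sum_congr rfl fun k _ => by ring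
    rw [Matrix.transpose_sub, Matrix.transpose_one, Matrix.transpose_smul, h1, sub_mul, mul_sub,
      mul_sub, Matrix.one_mul, Matrix.one_mul, Matrix.mul_one, Matrix.smul_mul, Matrix.mul_smul,
      h2, smul_smul, smul_smul]
    have h3 : 2 / (v ⬝ᵥ v) * (2 / (v ⬝ᵥ v)) * (v ⬝ᵥ v) = 2 / (v ⬝ᵥ v) + 2 / (v ⬝ᵥ v) := by
      by_cases h : v ⬝ᵥ v = 0
      · simp [h]
      · field_simp
        ring
    rw [h3, add_smul]
    abel⟩

/-- Relabelling of an orthogonal matrix. -/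
noncomputable def reO {S' : Type} [Fintype S'] [DecidableEq S'] (e : S ≃ S') (U : OG S) : OG S' :=
  ⟨Matrix.reindex e e U.1, by
    have h : U.1 * U.1ᵀ = 1 := (Matrix.mem_orthogonalGroup_iff S ℝ).1 U.2
    rw [Matrix.mem_orthogonalGroup_iff, Matrix.transpose_reindex, Matrix.reindex_apply,
      Matrix.reindex_apply, Matrix.submatrix_mul_equiv, h, Matrix.submatrix_one_equiv]⟩

/-- The permutation matrix with `(permO e *ᵥ v) i = v (e i)`. -/
noncomputable def permO (e : S ≃ S) : OG S :=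
  ⟨Matrix.of fun i j => if e i = j then 1 else 0, by
    rw [Matrix.mem_orthogonalGroup_iff]
    ext i j
    simp [Matrix.mul_apply, Matrix.one_apply, eq_comm]⟩

/-- `O` only mixes indices with the same label. -/
def BlockO {T : Type} (b : S → T) (O : OG S) : Prop := ∀ i j, b i ≠ b j → O.1 i j = 0

end orth

/-! ## The model -/

section model
variable {S : Type} [Fintype S] [DecidableEq S]

/-- Spin vector. -/
def sp (x : S → Bool) (i : S) : ℝ := if x i then 1 else -1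

/-- Uniform measure on the cube. -/
noncomputable def cube (S : Type) [Fintype S] [DecidableEq S] : Measure (S → Bool) :=
  uniformOn Set.univ

instance : IsProbabilityMeasure (cube S) := by
  unfold cube
  infer_instance

/-- Rotated spins. -/
noncomputable def yv (U : OG S) (i : S) (x : S → Bool) : ℝ := (U.1 *ᵥ sp x) i

/-- The quadratic energy. -/
noncomputable def EQ (c : S → ℝ) (U : OG S) (x : S → Bool) : ℝ := -(∑ i, c i * yv U i x ^ 2) / 2

/-- Value of the model with fields on the rotated spins. -/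
noncomputable def XM (ζ : ℕ → ℝ) (n : ℕ) (s : ℕ → S → ℝ) (c : S → ℝ) (U : OG S) : ℝ :=
  LS (cube S) ζ n s (EQ c U) (yv U)

/-- Log partition function. -/
noncomputable def F0 (c : S → ℝ) (U : OG S) : ℝ :=
  Real.log (∫ x, Real.exp (EQ c U x) ∂(cube S))

variable {A : Type} [Fintype A] [DecidableEq A]

/-- Coefficients of the blocks; the distinguished block `none` has coefficient zero. -/
def cv (ca : A → ℝ) (a0 : ℝ) (o : Option A) : ℝ := o.elim 0 fun a => ca a + a0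

/-- Field variances of the blocks. -/
def sv (θ ϑ : ℕ → ℝ) (d : ℕ) (o : Option A) : ℝ := o.elim (sq0 ϑ d) fun _ => sq0 θ d

/-- Field variances of the coordinates. -/
def sb (θ ϑ : ℕ → ℝ) (b : S → Option A) (d : ℕ) (i : S) : ℝ := sv θ ϑ d (b i)

/-- Coefficients of the coordinates; the shift is stored in `ϑ 0`. -/
def cb (ca : A → ℝ) (ϑ : ℕ → ℝ) (b : S → Option A) (i : S) : ℝ := cv ca (ϑ 0) (b i)

/-- Value of the block model. -/
noncomputable def XB (ζ : ℕ → ℝ) (n : ℕ) (ca : A → ℝ) (θ : ℕ → ℝ) (b : S → Option A)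
    (ϑ : ℕ → ℝ) (U : OG S) : ℝ :=
  XM ζ n (sb θ ϑ b) (cb ca ϑ b) U

/-- Averaged value. -/
noncomputable def AV (ζ : ℕ → ℝ) (n : ℕ) (ca : A → ℝ) (θ : ℕ → ℝ) (b : S → Option A)
    (ϑ : ℕ → ℝ) : ℝ :=
  ∫ U, XB ζ n ca θ b ϑ U ∂(haarO S)

/-- Averaged value with a probe. -/
noncomputable def TB (ζ : ℕ → ℝ) (n : ℕ) (ca : A → ℝ) (θ : ℕ → ℝ) (b : S → Option A)
    (ϑ : ℕ → ℝ) (d0 : ℕ) (σ : ℝ) (η : OG S → (S → Bool) → ℝ) : ℝ :=
  ∫ U, SL (cube S) ζ n d0 σ (sb θ ϑ b) (EQ (cb ca ϑ b) U) (yv U) (η U) ∂(haarO S)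

/-- Averaged response. -/
noncomputable def DB (ζ : ℕ → ℝ) (n : ℕ) (ca : A → ℝ) (θ : ℕ → ℝ) (b : S → Option A)
    (ϑ : ℕ → ℝ) (m : OG S → (S → Bool) → ℝ) (d : ℕ) : ℝ :=
  ∫ U, lDb (cube S) ζ n (sb θ ϑ b) (EQ (cb ca ϑ b) U) (yv U) (m U) d ∂(haarO S)

/-- Averaged Gibbs expectation. -/
noncomputable def GB (ζ : ℕ → ℝ) (n : ℕ) (ca : A → ℝ) (θ : ℕ → ℝ) (b : S → Option A)
    (ϑ : ℕ → ℝ) (g : OG S → (S → Bool) → ℝ) : ℝ :=
  ∫ U, lEG (cube S) ζ n (sb θ ϑ b) (EQ (cb ca ϑ b) U) (yv U) (g U) ∂(haarO S)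

/-- The model at `U` with one more sign and a cavity potential evaluated at `t`. -/
noncomputable def CX (ζ : ℕ → ℝ) (n : ℕ) (ca : A → ℝ) (θ : ℕ → ℝ) (b : S → Option A)
    (ϑ : ℕ → ℝ) (d0 : ℕ) (σ : ℝ) {L : Type} (Pc η : (L → ℝ) → Bool → ℝ) (U : OG S)
    (t : (S → Bool) → L → ℝ) : ℝ :=
  SL ((cube S).prod UnifAux.mu2) ζ n d0 σ (sb θ ϑ b)
    (fun x => EQ (cb ca ϑ b) U x.1 + Pc (t x.1) x.2) (fun i x => yv U i x.1)
    fun x => η (t x.1) x.2

/-- Cavity potential evaluated at the coordinates `jj`. -/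
noncomputable def FP (ζ : ℕ → ℝ) (n : ℕ) (ca : A → ℝ) (θ : ℕ → ℝ) (b : S → Option A)
    (ϑ : ℕ → ℝ) (d0 : ℕ) (σ : ℝ) {L : Type} (Pc η : (L → ℝ) → Bool → ℝ) (jj : L → S) : ℝ :=
  ∫ U, CX ζ n ca θ b ϑ d0 σ Pc η U (fun x l => yv U (jj l) x) ∂(haarO S)

/-- Cavity potential evaluated at Gaussian combinations of the distinguished block. -/
noncomputable def CV (ζ : ℕ → ℝ) (n : ℕ) (ca : A → ℝ) (θ : ℕ → ℝ) (b : S → Option A)
    (ϑ : ℕ → ℝ) (d0 : ℕ) (σ : ℝ) {L : Type} [Fintype L] (Pc η : (L → ℝ) → Bool → ℝ)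
    (g : ℝ) : ℝ :=
  ∫ U, ∫ G, CX ζ n ca θ b ϑ d0 σ Pc η U
      (fun x => tG G fun j : {i // b i = none} => yv U j.1 x)
    ∂(gv fun _ : L × {i // b i = none} => g) ∂(haarO S)

/-- Number of blocks. -/
def KK (A : Type) [Fintype A] : ℝ := Fintype.card A + 1

/-- Size of a block. -/
def fib (b : S → Option A) (o : Option A) : ℕ := Fintype.card {i // b i = o}

/-- Balanced blocks. -/
def Bal (D : ℝ) (N : ℕ) (b : S → Option A) : Prop := ∀ o, |KK A * fib b o - N| ≤ D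

/-- Crude parameter range. -/
structure Par0 (n : ℕ) (cm : ℝ) (ca : A → ℝ) (θ ϑ : ℕ → ℝ) : Prop where
  c : ∀ a, 0 ≤ ca a ∧ ca a ≤ cm
  a0 : 0 ≤ ϑ 0 ∧ ϑ 0 ≤ cm
  th : ∀ d, 1 ≤ d → d ≤ n → 0 ≤ θ d ∧ θ d ≤ ϑ d
  gap : ∑ d ∈ Finset.Icc 1 n, (ϑ d ^ 2 - θ d ^ 2) ≤ cm

/-- Parameter range of the cavity arguments. -/
structure Par (n : ℕ) (Θ θm cm t0 : ℝ) (ca : A → ℝ) (θ ϑ : ℕ → ℝ) : Prop where
  p0 : Par0 n cm ca θ ϑ
  fld : Fld n θm Θ ϑ
  a0 : θm ≤ ϑ 0
  th : ∀ d, 1 ≤ d → d ≤ n → θ d + θm ≤ ϑ d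
  gap : ∑ d ∈ Finset.Icc 1 n, (ϑ d ^ 2 - θ d ^ 2) ≤ t0

/-- `b1` arises from `b0` by adding one coordinate to the distinguished block and moving the
coordinates `jj a` from the distinguished block to the blocks `a`. -/
structure AddS (b0 : S → Option A) (jj : A → S) (b1 : Option S → Option A) : Prop where
  inj : Function.Injective jj
  top : ∀ a, b0 (jj a) = none
  new : b1 none = none
  mv : ∀ a, b1 (some (jj a)) = some a
  old : ∀ i, (∀ a, jj a ≠ i) → b1 (some i) = b0 i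

/-- Value of the model with prescribed block sizes. -/
noncomputable def Vz (ζ : ℕ → ℝ) (n : ℕ) (ca : A → ℝ) (θ : ℕ → ℝ) (z : Option A → ℕ)
    (ϑ : ℕ → ℝ) : ℝ :=
  AV ζ n ca θ (fun p : (Σ o : Option A, Fin (z o)) => p.1) ϑ

/-- Canonical block sizes. -/
def sz (A : Type) [Fintype A] (N : ℕ) (o : Option A) : ℕ :=
  o.elim (N - Fintype.card A * (N / (Fintype.card A + 1))) fun _ => N / (Fintype.card A + 1)

end model

/-! ## Cavity potentials -/

/-- Smooth clipping. -/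
noncomputable def clp (L y : ℝ) : ℝ := L * Real.tanh (y / L)

/-- Bounded version of `-Q / 2`. -/
noncomputable def fR (R Q : ℝ) : ℝ := R * (Real.exp (-(Q / (2 * R))) - 1)

section cav
variable {L : Type} [Fintype L]

/-- The cavity quadratic form. -/
noncomputable def Qf (κ β t : L → ℝ) (ε : Bool) : ℝ := ∑ l, κ l * (t l + UnifAux.sg ε * β l) ^ 2

/-- Quadratic cavity potential. -/
noncomputable def cavQ (κ β t : L → ℝ) (ε : Bool) : ℝ := -Qf κ β t ε / 2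

/-- Truncated cavity potential. -/
noncomputable def cavE (R : ℝ) (κ β t : L → ℝ) (ε : Bool) : ℝ := fR R (Qf κ β t ε)

/-- The sign as a probe. -/
def prS (_t : L → ℝ) (ε : Bool) : ℝ := UnifAux.sg ε

end cav

/-- The clipped coordinate as a probe. -/
noncomputable def prC (L : ℝ) (t : Unit → ℝ) (_ε : Bool) : ℝ := clp L (t ())

/-- The finite dimensional cavity system driven by the path `r`. -/
noncomputable def XC (ζ : ℕ → ℝ) (n d0 : ℕ) (σ : ℝ) (r : ℕ → ℝ) {L : Type} [Fintype L]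
    (Pc η : (L → ℝ) → Bool → ℝ) : ℝ :=
  TR UnifAux.mu2 ζ n d0 σ (fun d (_ : L) => dq r d) Pc η

/-! ## One dimensional functionals -/

/-- Overlap path after tilting by `-c t ^ 2 / 2`. -/
noncomputable def Wp (ζ : ℕ → ℝ) (n : ℕ) (c : ℝ) (r : ℕ → ℝ) : ℕ → ℝ :=
  cum n fun d => dq r d / ((1 + c * csDelta ζ r d) * (1 + c * csDelta ζ r (d + 1)))

/-- Cost of one Gaussian step on a concave quadratic. -/
noncomputable def qc (z v κ : ℝ) : ℝ :=
  if z = 0 then v * κ / 2 else Real.log (1 + z * v * κ) / (2 * z)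

/-- Total cost. -/
noncomputable def Lc (ζ : ℕ → ℝ) (n : ℕ) (c : ℝ) (r : ℕ → ℝ) : ℝ :=
  ∑ d ∈ Finset.range (n + 1), qc (ζ d) (dq r d) (c / (1 + c * csDelta ζ r d))

section oned
variable {L O : Type} [Fintype L] [Fintype O]

/-- Variance path of the cavity field on a new spin. -/
noncomputable def pP (ζ : ℕ → ℝ) (n : ℕ) (κ β : L → ℝ) (r : ℕ → ℝ) (k : ℕ) : ℝ :=
  ∑ l, (κ l * β l) ^ 2 * Wp ζ n (κ l) r k

/-- Average over the blocks. -/
noncomputable def avg (f : O → ℝ) : ℝ := (∑ o, f o) / Fintype.card O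

/-- Total overlap path. -/
noncomputable def rhoP (ζ : ℕ → ℝ) (n : ℕ) (c : O → ℝ) (r : ℕ → ℝ) (k : ℕ) : ℝ :=
  avg fun o => Wp ζ n (c o) r k

/-- Stieltjes transform of the atoms `-c o` at the point `1 / δ`. -/
noncomputable def Mf (c : O → ℝ) (δ : ℝ) : ℝ := avg fun o => δ / (1 + c o * δ)

/-- Its inverse. -/
noncomputable def Minv (c : O → ℝ) (x : ℝ) : ℝ := sInf {δ | 0 ≤ δ ∧ x ≤ Mf c δ}

/-- R-transform of the atoms `-c o` in the variable `δ`. -/
noncomputable def rt (c : O → ℝ) (δ : ℝ) : ℝ :=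
  -(∑ o, c o / (1 + c o * δ)) / ∑ o, 1 / (1 + c o * δ)

/-- R-transform of the atoms `-c o`. -/
noncomputable def Rc (c : O → ℝ) (x : ℝ) : ℝ := rt c (Minv c x)

/-- Energy term of the atoms, integrated over the whole range of the path. -/
noncomputable def Ec (c : O → ℝ) (n : ℕ) (ζ q : ℕ → ℝ) : ℝ :=
  (∫ t in (0 : ℝ)..q 0, Rc c (dl n ζ q t)) / 2

/-- Coefficient vectors: nonnegative, bounded, with a zero entry. -/
structure Cok (c : O → ℝ) (cm : ℝ) : Prop where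
  nn : ∀ o, 0 ≤ c o
  le : ∀ o, c o ≤ cm
  zero : ∃ o, c o = 0

end oned

/-- Arrowhead form of the diagonal matrix `c` seen from the uniform vector. -/
structure Arrow {A : Type} [Fintype A] [DecidableEq A] (c : Option A → ℝ) (κ β : A → ℝ)
    (R : OG (Option A)) : Prop where
  col : ∀ o, R.1 o none = (√(KK A))⁻¹
  quad : ∀ z : Option A → ℝ,
    ∑ o, c o * (R.1 *ᵥ z) o ^ 2 = ∑ a, κ a * (z (some a) + z none * β a) ^ 2

/-- The two algebraic consequences of the arrowhead form. -/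
structure Alg {A : Type} [Fintype A] (c : Option A → ℝ) (κ β : A → ℝ) : Prop where
  a : ∀ δ, 0 ≤ δ → rt c δ = ∑ a, (κ a * β a) ^ 2 * (δ / (1 + κ a * δ)) - ∑ a, κ a * β a ^ 2
  b : ∀ δ, 0 ≤ δ → ∑ a, κ a / (1 + κ a * δ) = (1 - (KK A)⁻¹) * ∑ o, c o / (1 + c o * δ)
    + Mf c δ * ∑ a, (κ a * β a) ^ 2 / (1 + κ a * δ) ^ 2

end Vale.Agent.P166
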